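import Vale.Agent.P173.NoGo

/-! The barycentric subdivision of the spine of the Poincare sphere. -/

namespace Vale.Agent.P173

open Finsupp Quaternion

def adjM : ℕ := 104145712655280675427899912137160047976255003165283272374455760319620609450475493351982695017589881251369472270095341216087872047040

def pL : List (List ((ℕ × ℕ) × ℤ)) := [
  [((0, 16), -1)],
  [((1, 16), -1)],
  [((2, 16), -1)],
  [((3, 16), -1)],
  [((4, 16), -1)],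
  [((5, 16), -1)],
  [((6, 16), -1)],
  [((7, 16), -1)],
  [((3, 8), 1), ((3, 16), -1)],
  [((0, 9), 1), ((0, 16), -1)],
  [((5, 10), 1), ((5, 16), -1)],
  [((11, 16), -1)],
  [((3, 12), 1), ((3, 16), -1)],
  [((5, 13), 1), ((5, 16), -1)],
  [((5, 14), 1), ((5, 16), -1)],
  [((15, 16), -1)],
  [],
  [((6, 17), 1), ((6, 16), -1)],
  [((7, 18), 1), ((7, 16), -1)],
  [((11, 19), 1), ((11, 16), -1)],
  [((15, 20), 1), ((15, 16), -1)]]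

def wL0 : List (List ((ℕ × ℕ × ℕ) × ℤ)) := [
  [],
  [],
  [],
  [],
  [],
  [],
  [((0, 6, 16), 1)],
  [((0, 7, 16), 1)],
  [((0, 7, 16), 1), ((0, 7, 18), -1), ((0, 8, 19), 1), ((0, 9, 18), 1), ((0, 9, 20), -1),
   ((0, 10, 19), -1), ((0, 10, 20), 1), ((2, 7, 16), -1), ((2, 7, 18), 1), ((2, 10, 19), 1),
   ((2, 10, 20), -1), ((2, 11, 16), 1), ((2, 11, 19), -1), ((2, 12, 17), -1), ((2, 12, 20), 1),
   ((2, 14, 17), 1), ((2, 14, 18), -1), ((3, 8, 17), -1), ((3, 12, 17), 1), ((3, 12, 20), -1),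
   ((3, 15, 16), -1), ((3, 15, 20), 1), ((4, 8, 17), 1), ((4, 8, 19), -1), ((4, 9, 18), -1),
   ((4, 9, 20), 1), ((4, 11, 16), -1), ((4, 11, 19), 1), ((4, 14, 17), -1), ((4, 14, 18), 1),
   ((4, 15, 16), 1), ((4, 15, 20), -1)],
  [],
  [((0, 7, 16), 1), ((0, 7, 18), -1), ((0, 9, 18), 1), ((0, 9, 20), -1), ((0, 10, 20), 1),
   ((1, 6, 16), 1), ((1, 6, 17), -1), ((1, 9, 18), -1), ((1, 9, 20), 1), ((1, 11, 16), -1),
   ((1, 11, 19), 1), ((1, 12, 17), 1), ((1, 12, 20), -1), ((1, 13, 18), 1), ((1, 13, 19), -1),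
   ((2, 7, 16), -1), ((2, 7, 18), 1), ((2, 10, 19), 1), ((2, 10, 20), -1), ((2, 11, 16), 1),
   ((2, 11, 19), -1), ((2, 12, 17), -1), ((2, 12, 20), 1), ((2, 14, 17), 1), ((2, 14, 18), -1),
   ((5, 6, 16), -1), ((5, 6, 17), 1), ((5, 10, 19), -1), ((5, 13, 18), -1), ((5, 13, 19), 1),
   ((5, 14, 17), -1), ((5, 14, 18), 1)],
  [],
  [],
  [],
  [],
  [],
  [],
  [((0, 6, 16), 1), ((0, 6, 17), -1)],
  [((0, 7, 16), 1), ((0, 7, 18), -1)],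
  [((0, 6, 16), 1), ((0, 6, 17), -1), ((0, 8, 17), 1), ((0, 8, 19), -1), ((2, 7, 16), -1),
   ((2, 7, 18), 1), ((2, 10, 19), 1), ((2, 10, 20), -1), ((2, 11, 16), 1), ((2, 11, 19), -1),
   ((2, 12, 17), -1), ((2, 12, 20), 1), ((2, 14, 17), 1), ((2, 14, 18), -1), ((3, 7, 16), 1),
   ((3, 7, 18), -1), ((3, 8, 17), -1), ((3, 8, 19), 1), ((3, 12, 17), 1), ((3, 12, 20), -1),
   ((3, 13, 18), 1), ((3, 13, 19), -1), ((3, 15, 16), -1), ((3, 15, 20), 1), ((5, 6, 16), -1),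
   ((5, 6, 17), 1), ((5, 10, 19), -1), ((5, 10, 20), 1), ((5, 13, 18), -1), ((5, 13, 19), 1),
   ((5, 14, 17), -1), ((5, 14, 18), 1), ((5, 15, 16), 1), ((5, 15, 20), -1)],
  [((0, 7, 16), 1), ((0, 7, 18), -1), ((0, 9, 18), 1), ((0, 9, 20), -1), ((1, 6, 16), 1),
   ((1, 6, 17), -1), ((1, 9, 18), -1), ((1, 9, 20), 1), ((1, 11, 16), -1), ((1, 11, 19), 1),
   ((1, 12, 17), 1), ((1, 12, 20), -1), ((1, 13, 18), 1), ((1, 13, 19), -1), ((2, 7, 16), -1),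
   ((2, 7, 18), 1), ((2, 10, 19), 1), ((2, 10, 20), -1), ((2, 11, 16), 1), ((2, 11, 19), -1),
   ((2, 12, 17), -1), ((2, 12, 20), 1), ((2, 14, 17), 1), ((2, 14, 18), -1), ((5, 6, 16), -1),
   ((5, 6, 17), 1), ((5, 10, 19), -1), ((5, 10, 20), 1), ((5, 13, 18), -1), ((5, 13, 19), 1),
   ((5, 14, 17), -1), ((5, 14, 18), 1), ((5, 15, 16), 1), ((5, 15, 20), -1)]]

def wL1 : List (List ((ℕ × ℕ × ℕ) × ℤ)) := [
  [],
  [],
  [],
  [],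
  [],
  [],
  [((1, 6, 16), 1)],
  [],
  [],
  [((0, 6, 16), -1), ((0, 6, 17), 1), ((0, 8, 17), -1), ((0, 8, 19), 1), ((0, 9, 20), -1),
   ((0, 10, 19), -1), ((0, 10, 20), 1), ((1, 9, 18), 1), ((1, 11, 16), 1), ((1, 11, 19), -1),
   ((1, 13, 18), -1), ((1, 13, 19), 1), ((4, 8, 17), 1), ((4, 8, 19), -1), ((4, 9, 18), -1),
   ((4, 9, 20), 1), ((4, 11, 16), -1), ((4, 11, 19), 1), ((4, 14, 17), -1), ((4, 14, 18), 1),
   ((4, 15, 16), 1), ((4, 15, 20), -1), ((5, 6, 16), 1), ((5, 6, 17), -1), ((5, 10, 19), 1),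
   ((5, 10, 20), -1), ((5, 13, 18), 1), ((5, 13, 19), -1), ((5, 14, 17), 1), ((5, 14, 18), -1),
   ((5, 15, 16), -1), ((5, 15, 20), 1)],
  [],
  [((1, 11, 16), 1)],
  [((0, 6, 16), -1), ((0, 6, 17), 1), ((0, 7, 16), 1), ((0, 7, 18), -1), ((0, 8, 17), -1),
   ((0, 8, 19), 1), ((0, 9, 18), 1), ((0, 9, 20), -1), ((0, 10, 19), -1), ((0, 10, 20), 1),
   ((1, 6, 16), 1), ((1, 6, 17), -1), ((1, 12, 17), 1), ((2, 7, 16), -1), ((2, 7, 18), 1),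
   ((2, 10, 19), 1), ((2, 10, 20), -1), ((2, 11, 16), 1), ((2, 11, 19), -1), ((2, 12, 17), -1),
   ((2, 12, 20), 1), ((2, 14, 17), 1), ((2, 14, 18), -1), ((3, 12, 20), -1), ((3, 15, 16), -1),
   ((3, 15, 20), 1), ((4, 8, 17), 1), ((4, 8, 19), -1), ((4, 9, 18), -1), ((4, 9, 20), 1),
   ((4, 11, 16), -1), ((4, 11, 19), 1), ((4, 14, 17), -1), ((4, 14, 18), 1), ((4, 15, 16), 1),
   ((4, 15, 20), -1)],
  [((0, 6, 16), -1), ((0, 6, 17), 1), ((0, 7, 16), 1), ((0, 7, 18), -1), ((0, 8, 17), -1),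
   ((0, 8, 19), 1), ((0, 9, 18), 1), ((0, 9, 20), -1), ((0, 10, 19), -1), ((0, 10, 20), 1),
   ((1, 6, 16), 1), ((1, 6, 17), -1), ((1, 9, 18), -1), ((1, 9, 20), 1), ((1, 12, 17), 1),
   ((1, 12, 20), -1), ((1, 13, 18), 1), ((3, 7, 16), -1), ((3, 7, 18), 1), ((3, 8, 17), 1),
   ((3, 8, 19), -1), ((3, 12, 17), -1), ((3, 12, 20), 1), ((3, 13, 18), -1), ((3, 13, 19), 1),
   ((3, 15, 16), 1), ((3, 15, 20), -1), ((5, 10, 19), 1), ((5, 10, 20), -1), ((5, 13, 19), -1),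
   ((5, 15, 16), -1), ((5, 15, 20), 1)],
  [],
  [],
  [],
  [((1, 6, 16), 1), ((1, 6, 17), -1)],
  [((0, 6, 16), -1), ((0, 6, 17), 1), ((0, 7, 16), 1), ((0, 7, 18), -1), ((0, 8, 17), -1),
   ((0, 8, 19), 1), ((0, 9, 18), 1), ((0, 9, 20), -1), ((0, 10, 19), -1), ((0, 10, 20), 1),
   ((1, 11, 16), 1), ((1, 11, 19), -1), ((1, 13, 18), -1), ((1, 13, 19), 1), ((4, 8, 17), 1),
   ((4, 8, 19), -1), ((4, 9, 18), -1), ((4, 9, 20), 1), ((4, 11, 16), -1), ((4, 11, 19), 1),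
   ((4, 14, 17), -1), ((4, 14, 18), 1), ((4, 15, 16), 1), ((4, 15, 20), -1), ((5, 6, 16), 1),
   ((5, 6, 17), -1), ((5, 10, 19), 1), ((5, 10, 20), -1), ((5, 13, 18), 1), ((5, 13, 19), -1),
   ((5, 14, 17), 1), ((5, 14, 18), -1), ((5, 15, 16), -1), ((5, 15, 20), 1)],
  [((1, 11, 16), 1), ((1, 11, 19), -1)],
  [((0, 6, 16), -1), ((0, 6, 17), 1), ((0, 7, 16), 1), ((0, 7, 18), -1), ((0, 8, 17), -1),
   ((0, 8, 19), 1), ((0, 9, 18), 1), ((0, 9, 20), -1), ((0, 10, 19), -1), ((0, 10, 20), 1),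
   ((1, 6, 16), 1), ((1, 6, 17), -1), ((1, 12, 17), 1), ((1, 12, 20), -1), ((2, 7, 16), -1),
   ((2, 7, 18), 1), ((2, 10, 19), 1), ((2, 10, 20), -1), ((2, 11, 16), 1), ((2, 11, 19), -1),
   ((2, 12, 17), -1), ((2, 12, 20), 1), ((2, 14, 17), 1), ((2, 14, 18), -1), ((4, 8, 17), 1),
   ((4, 8, 19), -1), ((4, 9, 18), -1), ((4, 9, 20), 1), ((4, 11, 16), -1), ((4, 11, 19), 1),
   ((4, 14, 17), -1), ((4, 14, 18), 1), ((4, 15, 16), 1), ((4, 15, 20), -1)]]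

def wL2 : List (List ((ℕ × ℕ × ℕ) × ℤ)) := [
  [],
  [],
  [],
  [],
  [],
  [],
  [],
  [((2, 7, 16), 1)],
  [],
  [],
  [((0, 6, 16), -1), ((0, 6, 17), 1), ((0, 7, 16), 1), ((0, 7, 18), -1), ((0, 8, 17), -1),
   ((0, 8, 19), 1), ((0, 9, 18), 1), ((0, 9, 20), -1), ((0, 10, 19), -1), ((0, 10, 20), 1),
   ((1, 6, 16), 1), ((1, 6, 17), -1), ((1, 9, 18), -1), ((1, 9, 20), 1), ((1, 11, 16), -1),
   ((1, 11, 19), 1), ((1, 12, 17), 1), ((1, 12, 20), -1), ((1, 13, 18), 1), ((1, 13, 19), -1),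
   ((2, 10, 19), 1), ((2, 11, 16), 1), ((2, 11, 19), -1), ((3, 7, 16), -1), ((3, 7, 18), 1),
   ((3, 8, 17), 1), ((3, 8, 19), -1), ((3, 12, 17), -1), ((3, 12, 20), 1), ((3, 13, 18), -1),
   ((3, 13, 19), 1), ((3, 15, 16), 1), ((3, 15, 20), -1), ((5, 10, 20), -1), ((5, 15, 16), -1),
   ((5, 15, 20), 1)],
  [((2, 11, 16), 1)],
  [((0, 6, 16), -1), ((0, 6, 17), 1), ((0, 7, 16), 1), ((0, 7, 18), -1), ((0, 8, 17), -1),
   ((0, 8, 19), 1), ((0, 9, 18), 1), ((0, 9, 20), -1), ((0, 10, 19), -1), ((0, 10, 20), 1),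
   ((1, 6, 16), 1), ((1, 6, 17), -1), ((1, 9, 18), -1), ((1, 9, 20), 1), ((1, 11, 16), -1),
   ((1, 11, 19), 1), ((1, 12, 17), 1), ((1, 12, 20), -1), ((1, 13, 18), 1), ((1, 13, 19), -1),
   ((2, 10, 19), 1), ((2, 10, 20), -1), ((2, 11, 16), 1), ((2, 11, 19), -1), ((2, 12, 20), 1),
   ((3, 7, 16), -1), ((3, 7, 18), 1), ((3, 8, 17), 1), ((3, 8, 19), -1), ((3, 12, 17), -1),
   ((3, 13, 18), -1), ((3, 13, 19), 1)],
  [],
  [((1, 6, 16), 1), ((1, 6, 17), -1), ((1, 9, 18), -1), ((1, 9, 20), 1), ((1, 11, 16), -1),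
   ((1, 11, 19), 1), ((1, 12, 17), 1), ((1, 12, 20), -1), ((1, 13, 18), 1), ((1, 13, 19), -1),
   ((2, 7, 16), 1), ((2, 7, 18), -1), ((2, 14, 18), 1), ((3, 7, 16), -1), ((3, 7, 18), 1),
   ((3, 8, 17), 1), ((3, 8, 19), -1), ((3, 12, 17), -1), ((3, 12, 20), 1), ((3, 13, 18), -1),
   ((3, 13, 19), 1), ((3, 15, 16), 1), ((3, 15, 20), -1), ((4, 8, 17), -1), ((4, 8, 19), 1),
   ((4, 9, 18), 1), ((4, 9, 20), -1), ((4, 11, 16), 1), ((4, 11, 19), -1), ((4, 14, 17), 1),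
   ((4, 14, 18), -1), ((4, 15, 16), -1), ((4, 15, 20), 1), ((5, 6, 16), -1), ((5, 6, 17), 1),
   ((5, 14, 17), -1)],
  [],
  [],
  [((1, 6, 16), 1), ((1, 6, 17), -1), ((1, 9, 18), -1), ((1, 9, 20), 1), ((1, 11, 16), -1),
   ((1, 11, 19), 1), ((1, 12, 17), 1), ((1, 12, 20), -1), ((1, 13, 18), 1), ((1, 13, 19), -1),
   ((2, 7, 16), 1), ((2, 7, 18), -1), ((2, 14, 17), -1), ((2, 14, 18), 1), ((3, 7, 16), -1),
   ((3, 7, 18), 1), ((3, 8, 17), 1), ((3, 8, 19), -1), ((3, 12, 17), -1), ((3, 12, 20), 1),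
   ((3, 13, 18), -1), ((3, 13, 19), 1), ((3, 15, 16), 1), ((3, 15, 20), -1), ((4, 8, 17), -1),
   ((4, 8, 19), 1), ((4, 9, 18), 1), ((4, 9, 20), -1), ((4, 11, 16), 1), ((4, 11, 19), -1),
   ((4, 14, 17), 1), ((4, 14, 18), -1), ((4, 15, 16), -1), ((4, 15, 20), 1)],
  [((2, 7, 16), 1), ((2, 7, 18), -1)],
  [((2, 11, 16), 1), ((2, 11, 19), -1)],
  [((0, 6, 16), -1), ((0, 6, 17), 1), ((0, 7, 16), 1), ((0, 7, 18), -1), ((0, 8, 17), -1),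
   ((0, 8, 19), 1), ((0, 9, 18), 1), ((0, 9, 20), -1), ((0, 10, 19), -1), ((0, 10, 20), 1),
   ((1, 6, 16), 1), ((1, 6, 17), -1), ((1, 9, 18), -1), ((1, 9, 20), 1), ((1, 11, 16), -1),
   ((1, 11, 19), 1), ((1, 12, 17), 1), ((1, 12, 20), -1), ((1, 13, 18), 1), ((1, 13, 19), -1),
   ((2, 10, 19), 1), ((2, 10, 20), -1), ((2, 11, 16), 1), ((2, 11, 19), -1), ((3, 7, 16), -1),
   ((3, 7, 18), 1), ((3, 8, 17), 1), ((3, 8, 19), -1), ((3, 12, 17), -1), ((3, 12, 20), 1),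
   ((3, 13, 18), -1), ((3, 13, 19), 1), ((3, 15, 16), 1), ((3, 15, 20), -1)]]

def wL3 : List (List ((ℕ × ℕ × ℕ) × ℤ)) := [
  [],
  [],
  [],
  [],
  [],
  [],
  [],
  [((3, 7, 16), 1)],
  [],
  [],
  [],
  [],
  [],
  [((1, 6, 16), 1), ((1, 6, 17), -1), ((1, 9, 18), -1), ((1, 9, 20), 1), ((1, 11, 16), -1),
   ((1, 11, 19), 1), ((1, 12, 17), 1), ((1, 12, 20), -1), ((1, 13, 18), 1), ((1, 13, 19), -1),
   ((3, 8, 17), 1), ((3, 8, 19), -1), ((3, 12, 17), -1), ((3, 12, 20), 1), ((3, 13, 19), 1),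
   ((3, 15, 16), 1), ((3, 15, 20), -1), ((4, 8, 17), -1), ((4, 8, 19), 1), ((4, 9, 18), 1),
   ((4, 9, 20), -1), ((4, 11, 16), 1), ((4, 11, 19), -1), ((4, 14, 17), 1), ((4, 14, 18), -1),
   ((4, 15, 16), -1), ((4, 15, 20), 1), ((5, 6, 16), -1), ((5, 6, 17), 1), ((5, 13, 18), -1),
   ((5, 14, 17), -1), ((5, 14, 18), 1)],
  [],
  [((3, 15, 16), 1)],
  [],
  [((0, 6, 16), 1), ((0, 6, 17), -1), ((0, 7, 16), -1), ((0, 7, 18), 1), ((0, 8, 17), 1),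
   ((0, 8, 19), -1), ((0, 9, 18), -1), ((0, 9, 20), 1), ((0, 10, 19), 1), ((0, 10, 20), -1),
   ((2, 7, 16), 1), ((2, 7, 18), -1), ((2, 10, 19), -1), ((2, 10, 20), 1), ((2, 11, 16), -1),
   ((2, 11, 19), 1), ((2, 12, 17), 1), ((2, 12, 20), -1), ((2, 14, 17), -1), ((2, 14, 18), 1),
   ((3, 12, 17), -1), ((3, 12, 20), 1), ((3, 15, 16), 1), ((3, 15, 20), -1), ((4, 8, 17), -1),
   ((4, 8, 19), 1), ((4, 9, 18), 1), ((4, 9, 20), -1), ((4, 11, 16), 1), ((4, 11, 19), -1),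
   ((4, 14, 17), 1), ((4, 14, 18), -1), ((4, 15, 16), -1), ((4, 15, 20), 1)],
  [((3, 7, 16), 1), ((3, 7, 18), -1)],
  [((0, 6, 16), 1), ((0, 6, 17), -1), ((0, 7, 16), -1), ((0, 7, 18), 1), ((0, 8, 17), 1),
   ((0, 8, 19), -1), ((0, 9, 18), -1), ((0, 9, 20), 1), ((0, 10, 19), 1), ((0, 10, 20), -1),
   ((3, 7, 16), 1), ((3, 7, 18), -1), ((3, 13, 18), 1), ((3, 13, 19), -1), ((4, 8, 17), -1),
   ((4, 8, 19), 1), ((4, 9, 18), 1), ((4, 9, 20), -1), ((4, 11, 16), 1), ((4, 11, 19), -1),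
   ((4, 14, 17), 1), ((4, 14, 18), -1), ((4, 15, 16), -1), ((4, 15, 20), 1), ((5, 6, 16), -1),
   ((5, 6, 17), 1), ((5, 10, 19), -1), ((5, 10, 20), 1), ((5, 13, 18), -1), ((5, 13, 19), 1),
   ((5, 14, 17), -1), ((5, 14, 18), 1), ((5, 15, 16), 1), ((5, 15, 20), -1)],
  [((3, 15, 16), 1), ((3, 15, 20), -1)]]

def wL4 : List (List ((ℕ × ℕ × ℕ) × ℤ)) := [
  [],
  [],
  [],
  [],
  [],
  [],
  [],
  [],
  [((0, 6, 16), -1), ((0, 6, 17), 1), ((0, 7, 16), 1), ((0, 7, 18), -1), ((0, 8, 17), -1),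
   ((0, 8, 19), 1), ((0, 9, 18), 1), ((0, 9, 20), -1), ((0, 10, 19), -1), ((0, 10, 20), 1),
   ((3, 7, 16), -1), ((3, 7, 18), 1), ((3, 8, 19), -1), ((3, 13, 18), -1), ((3, 13, 19), 1),
   ((4, 8, 17), 1), ((4, 9, 18), -1), ((4, 9, 20), 1), ((4, 14, 17), -1), ((4, 14, 18), 1),
   ((4, 15, 16), 1), ((4, 15, 20), -1), ((5, 6, 16), 1), ((5, 6, 17), -1), ((5, 10, 19), 1),
   ((5, 10, 20), -1), ((5, 13, 18), 1), ((5, 13, 19), -1), ((5, 14, 17), 1), ((5, 14, 18), -1),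
   ((5, 15, 16), -1), ((5, 15, 20), 1)],
  [((0, 7, 16), -1), ((0, 7, 18), 1), ((0, 9, 18), -1), ((1, 6, 16), -1), ((1, 6, 17), 1),
   ((1, 9, 18), 1), ((1, 9, 20), -1), ((1, 11, 16), 1), ((1, 11, 19), -1), ((1, 12, 17), -1),
   ((1, 12, 20), 1), ((1, 13, 18), -1), ((1, 13, 19), 1), ((2, 7, 16), 1), ((2, 7, 18), -1),
   ((2, 10, 19), -1), ((2, 10, 20), 1), ((2, 11, 16), -1), ((2, 11, 19), 1), ((2, 12, 17), 1),
   ((2, 12, 20), -1), ((2, 14, 17), -1), ((2, 14, 18), 1), ((4, 9, 20), 1), ((4, 15, 16), 1),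
   ((4, 15, 20), -1), ((5, 6, 16), 1), ((5, 6, 17), -1), ((5, 10, 19), 1), ((5, 10, 20), -1),
   ((5, 13, 18), 1), ((5, 13, 19), -1), ((5, 14, 17), 1), ((5, 14, 18), -1), ((5, 15, 16), -1),
   ((5, 15, 20), 1)],
  [],
  [((4, 11, 16), 1)],
  [],
  [],
  [((2, 7, 16), 1), ((2, 7, 18), -1), ((2, 10, 19), -1), ((2, 10, 20), 1), ((2, 11, 16), -1),
   ((2, 11, 19), 1), ((2, 12, 17), 1), ((2, 12, 20), -1), ((2, 14, 17), -1), ((2, 14, 18), 1),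
   ((3, 7, 16), -1), ((3, 7, 18), 1), ((3, 8, 17), 1), ((3, 8, 19), -1), ((3, 12, 17), -1),
   ((3, 12, 20), 1), ((3, 13, 18), -1), ((3, 13, 19), 1), ((3, 15, 16), 1), ((3, 15, 20), -1),
   ((4, 8, 17), -1), ((4, 8, 19), 1), ((4, 11, 16), 1), ((4, 11, 19), -1), ((4, 14, 17), 1),
   ((5, 10, 19), 1), ((5, 10, 20), -1), ((5, 13, 18), 1), ((5, 13, 19), -1), ((5, 14, 18), -1),
   ((5, 15, 16), -1), ((5, 15, 20), 1)],
  [((4, 15, 16), 1)],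
  [],
  [((2, 7, 16), 1), ((2, 7, 18), -1), ((2, 10, 19), -1), ((2, 10, 20), 1), ((2, 11, 16), -1),
   ((2, 11, 19), 1), ((2, 12, 17), 1), ((2, 12, 20), -1), ((2, 14, 17), -1), ((2, 14, 18), 1),
   ((3, 7, 16), -1), ((3, 7, 18), 1), ((3, 8, 17), 1), ((3, 8, 19), -1), ((3, 12, 17), -1),
   ((3, 12, 20), 1), ((3, 13, 18), -1), ((3, 13, 19), 1), ((3, 15, 16), 1), ((3, 15, 20), -1),
   ((4, 8, 17), -1), ((4, 8, 19), 1), ((4, 11, 16), 1), ((4, 11, 19), -1), ((5, 6, 16), 1),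
   ((5, 6, 17), -1), ((5, 10, 19), 1), ((5, 10, 20), -1), ((5, 13, 18), 1), ((5, 13, 19), -1),
   ((5, 14, 17), 1), ((5, 14, 18), -1), ((5, 15, 16), -1), ((5, 15, 20), 1)],
  [((1, 6, 16), -1), ((1, 6, 17), 1), ((1, 9, 18), 1), ((1, 9, 20), -1), ((1, 11, 16), 1),
   ((1, 11, 19), -1), ((1, 12, 17), -1), ((1, 12, 20), 1), ((1, 13, 18), -1), ((1, 13, 19), 1),
   ((2, 7, 16), 1), ((2, 7, 18), -1), ((2, 10, 19), -1), ((2, 10, 20), 1), ((2, 11, 16), -1),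
   ((2, 11, 19), 1), ((2, 12, 17), 1), ((2, 12, 20), -1), ((2, 14, 17), -1), ((2, 14, 18), 1),
   ((4, 9, 18), -1), ((4, 9, 20), 1), ((4, 15, 16), 1), ((4, 15, 20), -1), ((5, 6, 16), 1),
   ((5, 6, 17), -1), ((5, 10, 19), 1), ((5, 10, 20), -1), ((5, 13, 18), 1), ((5, 13, 19), -1),
   ((5, 14, 17), 1), ((5, 14, 18), -1), ((5, 15, 16), -1), ((5, 15, 20), 1)],
  [((4, 11, 16), 1), ((4, 11, 19), -1)],
  [((4, 15, 16), 1), ((4, 15, 20), -1)]]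

def wL5 : List (List ((ℕ × ℕ × ℕ) × ℤ)) := [
  [],
  [],
  [],
  [],
  [],
  [],
  [((5, 6, 16), 1)],
  [],
  [],
  [],
  [],
  [],
  [],
  [],
  [],
  [((5, 15, 16), 1)],
  [],
  [((5, 6, 16), 1), ((5, 6, 17), -1)],
  [((1, 6, 16), -1), ((1, 6, 17), 1), ((1, 9, 18), 1), ((1, 9, 20), -1), ((1, 11, 16), 1),
   ((1, 11, 19), -1), ((1, 12, 17), -1), ((1, 12, 20), 1), ((1, 13, 18), -1), ((1, 13, 19), 1),
   ((3, 7, 16), 1), ((3, 7, 18), -1), ((3, 8, 17), -1), ((3, 8, 19), 1), ((3, 12, 17), 1),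
   ((3, 12, 20), -1), ((3, 13, 18), 1), ((3, 13, 19), -1), ((3, 15, 16), -1), ((3, 15, 20), 1),
   ((4, 8, 17), 1), ((4, 8, 19), -1), ((4, 9, 18), -1), ((4, 9, 20), 1), ((4, 11, 16), -1),
   ((4, 11, 19), 1), ((4, 14, 17), -1), ((4, 14, 18), 1), ((4, 15, 16), 1), ((4, 15, 20), -1),
   ((5, 6, 16), 1), ((5, 6, 17), -1), ((5, 14, 17), 1), ((5, 14, 18), -1)],
  [((0, 6, 16), 1), ((0, 6, 17), -1), ((0, 7, 16), -1), ((0, 7, 18), 1), ((0, 8, 17), 1),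
   ((0, 8, 19), -1), ((0, 9, 18), -1), ((0, 9, 20), 1), ((0, 10, 19), 1), ((0, 10, 20), -1),
   ((1, 6, 16), -1), ((1, 6, 17), 1), ((1, 9, 18), 1), ((1, 9, 20), -1), ((1, 11, 16), 1),
   ((1, 11, 19), -1), ((1, 12, 17), -1), ((1, 12, 20), 1), ((1, 13, 18), -1), ((1, 13, 19), 1),
   ((3, 7, 16), 1), ((3, 7, 18), -1), ((3, 8, 17), -1), ((3, 8, 19), 1), ((3, 12, 17), 1),
   ((3, 12, 20), -1), ((3, 13, 18), 1), ((3, 13, 19), -1), ((3, 15, 16), -1), ((3, 15, 20), 1),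
   ((5, 10, 19), -1), ((5, 10, 20), 1), ((5, 15, 16), 1), ((5, 15, 20), -1)],
  [((5, 15, 16), 1), ((5, 15, 20), -1)]]

def wL6 : List (List ((ℕ × ℕ × ℕ) × ℤ)) := []

def wL7 : List (List ((ℕ × ℕ × ℕ) × ℤ)) := []

def wL8 : List (List ((ℕ × ℕ × ℕ) × ℤ)) := [
  [],
  [],
  [],
  [],
  [],
  [],
  [],
  [],
  [],
  [],
  [],
  [],
  [],
  [],
  [],
  [],
  [],
  [((0, 6, 16), 1), ((0, 6, 17), -1), ((0, 7, 16), -1), ((0, 7, 18), 1), ((0, 8, 17), 1),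
   ((0, 8, 19), -1), ((0, 9, 18), -1), ((0, 9, 20), 1), ((0, 10, 19), 1), ((0, 10, 20), -1),
   ((2, 7, 16), 1), ((2, 7, 18), -1), ((2, 10, 19), -1), ((2, 10, 20), 1), ((2, 11, 16), -1),
   ((2, 11, 19), 1), ((2, 12, 17), 1), ((2, 12, 20), -1), ((2, 14, 17), -1), ((2, 14, 18), 1),
   ((3, 8, 17), 1), ((3, 12, 17), -1), ((3, 12, 20), 1), ((3, 15, 16), 1), ((3, 15, 20), -1),
   ((4, 8, 17), -1), ((4, 8, 19), 1), ((4, 9, 18), 1), ((4, 9, 20), -1), ((4, 11, 16), 1),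
   ((4, 11, 19), -1), ((4, 14, 17), 1), ((4, 14, 18), -1), ((4, 15, 16), -1), ((4, 15, 20), 1)],
  [],
  [((0, 6, 16), 1), ((0, 6, 17), -1), ((0, 7, 16), -1), ((0, 7, 18), 1), ((0, 8, 17), 1),
   ((0, 8, 19), -1), ((0, 9, 18), -1), ((0, 9, 20), 1), ((0, 10, 19), 1), ((0, 10, 20), -1),
   ((3, 7, 16), 1), ((3, 7, 18), -1), ((3, 8, 19), 1), ((3, 13, 18), 1), ((3, 13, 19), -1),
   ((4, 8, 17), -1), ((4, 8, 19), 1), ((4, 9, 18), 1), ((4, 9, 20), -1), ((4, 11, 16), 1),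
   ((4, 11, 19), -1), ((4, 14, 17), 1), ((4, 14, 18), -1), ((4, 15, 16), -1), ((4, 15, 20), 1),
   ((5, 6, 16), -1), ((5, 6, 17), 1), ((5, 10, 19), -1), ((5, 10, 20), 1), ((5, 13, 18), -1),
   ((5, 13, 19), 1), ((5, 14, 17), -1), ((5, 14, 18), 1), ((5, 15, 16), 1), ((5, 15, 20), -1)]]

def wL9 : List (List ((ℕ × ℕ × ℕ) × ℤ)) := [
  [],
  [],
  [],
  [],
  [],
  [],
  [],
  [],
  [],
  [],
  [],
  [],
  [],
  [],
  [],
  [],
  [],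
  [],
  [((0, 7, 16), 1), ((0, 7, 18), -1), ((0, 9, 18), 1)],
  [],
  [((0, 7, 16), 1), ((0, 7, 18), -1), ((0, 9, 18), 1), ((1, 6, 16), 1), ((1, 6, 17), -1),
   ((1, 9, 18), -1), ((1, 9, 20), 1), ((1, 11, 16), -1), ((1, 11, 19), 1), ((1, 12, 17), 1),
   ((1, 12, 20), -1), ((1, 13, 18), 1), ((1, 13, 19), -1), ((2, 7, 16), -1), ((2, 7, 18), 1),
   ((2, 10, 19), 1), ((2, 10, 20), -1), ((2, 11, 16), 1), ((2, 11, 19), -1), ((2, 12, 17), -1),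
   ((2, 12, 20), 1), ((2, 14, 17), 1), ((2, 14, 18), -1), ((5, 6, 16), -1), ((5, 6, 17), 1),
   ((5, 10, 19), -1), ((5, 10, 20), 1), ((5, 13, 18), -1), ((5, 13, 19), 1), ((5, 14, 17), -1),
   ((5, 14, 18), 1), ((5, 15, 16), 1), ((5, 15, 20), -1)]]

def wL10 : List (List ((ℕ × ℕ × ℕ) × ℤ)) := [
  [],
  [],
  [],
  [],
  [],
  [],
  [],
  [],
  [],
  [],
  [],
  [],
  [],
  [],
  [],
  [],
  [],
  [],
  [],
  [((0, 6, 16), 1), ((0, 6, 17), -1), ((0, 7, 16), -1), ((0, 7, 18), 1), ((0, 8, 17), 1),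
   ((0, 8, 19), -1), ((0, 9, 18), -1), ((0, 9, 20), 1), ((0, 10, 19), 1), ((0, 10, 20), -1),
   ((1, 6, 16), -1), ((1, 6, 17), 1), ((1, 9, 18), 1), ((1, 9, 20), -1), ((1, 11, 16), 1),
   ((1, 11, 19), -1), ((1, 12, 17), -1), ((1, 12, 20), 1), ((1, 13, 18), -1), ((1, 13, 19), 1),
   ((3, 7, 16), 1), ((3, 7, 18), -1), ((3, 8, 17), -1), ((3, 8, 19), 1), ((3, 12, 17), 1),
   ((3, 12, 20), -1), ((3, 13, 18), 1), ((3, 13, 19), -1), ((3, 15, 16), -1), ((3, 15, 20), 1),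
   ((5, 10, 20), 1), ((5, 15, 16), 1), ((5, 15, 20), -1)],
  [((5, 10, 20), 1), ((5, 15, 16), 1), ((5, 15, 20), -1)]]

def wL11 : List (List ((ℕ × ℕ × ℕ) × ℤ)) := []

def wL12 : List (List ((ℕ × ℕ × ℕ) × ℤ)) := [
  [],
  [],
  [],
  [],
  [],
  [],
  [],
  [],
  [],
  [],
  [],
  [],
  [],
  [],
  [],
  [],
  [],
  [((0, 6, 16), 1), ((0, 6, 17), -1), ((0, 7, 16), -1), ((0, 7, 18), 1), ((0, 8, 17), 1),
   ((0, 8, 19), -1), ((0, 9, 18), -1), ((0, 9, 20), 1), ((0, 10, 19), 1), ((0, 10, 20), -1),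
   ((2, 7, 16), 1), ((2, 7, 18), -1), ((2, 10, 19), -1), ((2, 10, 20), 1), ((2, 11, 16), -1),
   ((2, 11, 19), 1), ((2, 12, 17), 1), ((2, 12, 20), -1), ((2, 14, 17), -1), ((2, 14, 18), 1),
   ((3, 12, 20), 1), ((3, 15, 16), 1), ((3, 15, 20), -1), ((4, 8, 17), -1), ((4, 8, 19), 1),
   ((4, 9, 18), 1), ((4, 9, 20), -1), ((4, 11, 16), 1), ((4, 11, 19), -1), ((4, 14, 17), 1),
   ((4, 14, 18), -1), ((4, 15, 16), -1), ((4, 15, 20), 1)],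
  [],
  [],
  [((3, 12, 20), 1), ((3, 15, 16), 1), ((3, 15, 20), -1)]]

def wL13 : List (List ((ℕ × ℕ × ℕ) × ℤ)) := [
  [],
  [],
  [],
  [],
  [],
  [],
  [],
  [],
  [],
  [],
  [],
  [],
  [],
  [],
  [],
  [],
  [],
  [],
  [((1, 6, 16), -1), ((1, 6, 17), 1), ((1, 9, 18), 1), ((1, 9, 20), -1), ((1, 11, 16), 1),
   ((1, 11, 19), -1), ((1, 12, 17), -1), ((1, 12, 20), 1), ((1, 13, 18), -1), ((1, 13, 19), 1),
   ((3, 7, 16), 1), ((3, 7, 18), -1), ((3, 8, 17), -1), ((3, 8, 19), 1), ((3, 12, 17), 1),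
   ((3, 12, 20), -1), ((3, 13, 18), 1), ((3, 13, 19), -1), ((3, 15, 16), -1), ((3, 15, 20), 1),
   ((4, 8, 17), 1), ((4, 8, 19), -1), ((4, 9, 18), -1), ((4, 9, 20), 1), ((4, 11, 16), -1),
   ((4, 11, 19), 1), ((4, 14, 17), -1), ((4, 14, 18), 1), ((4, 15, 16), 1), ((4, 15, 20), -1),
   ((5, 6, 16), 1), ((5, 6, 17), -1), ((5, 13, 18), 1), ((5, 14, 17), 1), ((5, 14, 18), -1)],
  [((0, 6, 16), 1), ((0, 6, 17), -1), ((0, 7, 16), -1), ((0, 7, 18), 1), ((0, 8, 17), 1),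
   ((0, 8, 19), -1), ((0, 9, 18), -1), ((0, 9, 20), 1), ((0, 10, 19), 1), ((0, 10, 20), -1),
   ((1, 6, 16), -1), ((1, 6, 17), 1), ((1, 9, 18), 1), ((1, 9, 20), -1), ((1, 11, 16), 1),
   ((1, 11, 19), -1), ((1, 12, 17), -1), ((1, 12, 20), 1), ((1, 13, 18), -1), ((1, 13, 19), 1),
   ((3, 7, 16), 1), ((3, 7, 18), -1), ((3, 8, 17), -1), ((3, 8, 19), 1), ((3, 12, 17), 1),
   ((3, 12, 20), -1), ((3, 13, 18), 1), ((3, 13, 19), -1), ((3, 15, 16), -1), ((3, 15, 20), 1),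
   ((5, 10, 19), -1), ((5, 10, 20), 1), ((5, 13, 19), 1), ((5, 15, 16), 1), ((5, 15, 20), -1)]]

def wL14 : List (List ((ℕ × ℕ × ℕ) × ℤ)) := [
  [],
  [],
  [],
  [],
  [],
  [],
  [],
  [],
  [],
  [],
  [],
  [],
  [],
  [],
  [],
  [],
  [],
  [((5, 6, 16), 1), ((5, 6, 17), -1), ((5, 14, 17), 1)],
  [((1, 6, 16), -1), ((1, 6, 17), 1), ((1, 9, 18), 1), ((1, 9, 20), -1), ((1, 11, 16), 1),
   ((1, 11, 19), -1), ((1, 12, 17), -1), ((1, 12, 20), 1), ((1, 13, 18), -1), ((1, 13, 19), 1),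
   ((3, 7, 16), 1), ((3, 7, 18), -1), ((3, 8, 17), -1), ((3, 8, 19), 1), ((3, 12, 17), 1),
   ((3, 12, 20), -1), ((3, 13, 18), 1), ((3, 13, 19), -1), ((3, 15, 16), -1), ((3, 15, 20), 1),
   ((4, 8, 17), 1), ((4, 8, 19), -1), ((4, 9, 18), -1), ((4, 9, 20), 1), ((4, 11, 16), -1),
   ((4, 11, 19), 1), ((4, 14, 17), -1), ((4, 14, 18), 1), ((4, 15, 16), 1), ((4, 15, 20), -1),
   ((5, 6, 16), 1), ((5, 6, 17), -1), ((5, 14, 17), 1)]]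

def wL15 : List (List ((ℕ × ℕ × ℕ) × ℤ)) := []

def wL16 : List (List ((ℕ × ℕ × ℕ) × ℤ)) := []

def wL17 : List (List ((ℕ × ℕ × ℕ) × ℤ)) := []

def wL18 : List (List ((ℕ × ℕ × ℕ) × ℤ)) := []

def wL19 : List (List ((ℕ × ℕ × ℕ) × ℤ)) := []

def wL20 : List (List ((ℕ × ℕ × ℕ) × ℤ)) := []

def wL : List (List (List ((ℕ × ℕ × ℕ) × ℤ))) :=
  [wL0, wL1, wL2, wL3, wL4, wL5, wL6, wL7, wL8, wL9, wL10, wL11, wL12, wL13, wL14, wL15, wL16, wL17, wL18, wL19, wL20]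

def qL : List ℍ[ℤ√5] := [
  ⟨⟨4, 0⟩, ⟨0, 0⟩, ⟨0, 0⟩, ⟨0, 0⟩⟩,
  ⟨⟨1, 1⟩, ⟨0, 0⟩, ⟨2, 0⟩, ⟨-1, 1⟩⟩,
  ⟨⟨1, 1⟩, ⟨0, 0⟩, ⟨-2, 0⟩, ⟨1, -1⟩⟩,
  ⟨⟨1, 1⟩, ⟨0, 0⟩, ⟨2, 0⟩, ⟨1, -1⟩⟩,
  ⟨⟨1, 1⟩, ⟨0, 0⟩, ⟨-2, 0⟩, ⟨-1, 1⟩⟩,
  ⟨⟨1, 1⟩, ⟨-1, 1⟩, ⟨0, 0⟩, ⟨-2, 0⟩⟩,
  ⟨⟨1, 1⟩, ⟨1, -1⟩, ⟨0, 0⟩, ⟨2, 0⟩⟩,
  ⟨⟨1, 1⟩, ⟨-1, 1⟩, ⟨0, 0⟩, ⟨2, 0⟩⟩,
  ⟨⟨1, 1⟩, ⟨1, -1⟩, ⟨0, 0⟩, ⟨-2, 0⟩⟩,
  ⟨⟨1, 1⟩, ⟨2, 0⟩, ⟨1, -1⟩, ⟨0, 0⟩⟩,
  ⟨⟨1, 1⟩, ⟨-2, 0⟩, ⟨-1, 1⟩, ⟨0, 0⟩⟩]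

def qC : ℕ := 61986693574232104883523833495261348549685319600064070692093511490114721441657533063979683420270969910922616656442878207248364199282308944021972692907199035801953033699173075687427153917489736568849555100709705117928995189591912547152532718149542604584222041339081516400093943783745937299933891662923541966327860227135858702177993938251879980707230273389658858060585171413538437612194659651252516652434506256932822858758161458897631636981696221924883473354023102032593872397491253202533178664253520944340246495255802574536704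

def fn (k : ℕ) : Fin 21 := Fin.ofNat 21 k

theorem fn_val (u : Fin 21) : fn u = u := Fin.ofNat_val_eq_self u

def adjb (u v : Fin 21) : Bool := adjM.testBit (u * 21 + v)

def Gs : SimpleGraph (Fin 21) where
  Adj u v := adjb u v = true
  symm := ⟨by decide +kernel⟩
  loopless := ⟨by decide +kernel⟩

instance : DecidableRel Gs.Adj := fun u v => inferInstanceAs (Decidable (adjb u v = true))

section
variable {K : Type}

noncomputable def toF (dec : K → Finset (Fin 21)) (l : List (K × ℤ)) : Finset (Fin 21) →₀ ℤ :=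
  (l.map fun x => x.2 • single (dec x.1) 1).sum

def ng (l : List (K × ℤ)) : List (K × ℤ) := l.map fun x => (x.1, -x.2)

variable {dec : K → Finset (Fin 21)}

theorem toF_app (l l' : List (K × ℤ)) : toF dec (l ++ l') = toF dec l + toF dec l' := by simp [toF]

theorem toF_cons (x : K × ℤ) (l : List (K × ℤ)) :
    toF dec (x :: l) = x.2 • single (dec x.1) 1 + toF dec l := by simp [toF]

theorem toF_ng (l : List (K × ℤ)) : toF dec (ng l) = -toF dec l := by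
  induction l with
  | nil => simp [toF, ng]
  | cons x l ih => rw [ng, List.map_cons, toF_cons, toF_cons, ← ng, ih, neg_smul, neg_add]

variable [DecidableEq K]

def ins (k : K) (c : ℤ) : List (K × ℤ) → List (K × ℤ)
  | [] => [(k, c)]
  | x :: l => if k = x.1 then (k, c + x.2) :: l else x :: ins k c l

theorem toF_ins (k : K) (c : ℤ) (l : List (K × ℤ)) : toF dec (ins k c l) = toF dec ((k, c) :: l) := by
  induction l with
  | nil => rfl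
  | cons x l ih =>
    rw [ins]
    split_ifs with h
    · simp only [toF_cons, h, add_smul, add_assoc]
    · simp only [toF_cons, ih]; abel

def zr (l : List (K × ℤ)) : Bool := (l.foldr (fun x => ins x.1 x.2) []).all (·.2 == 0)

theorem toF_zr {l : List (K × ℤ)} (h : zr l = true) : toF dec l = 0 := by
  have e : ∀ l : List (K × ℤ), toF dec (l.foldr (fun x => ins x.1 x.2) []) = toF dec l :=
    fun l => by
      induction l with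
      | nil => rfl
      | cons x l ih => rw [List.foldr_cons, toF_ins, toF_cons, toF_cons, ih]
  rw [← e]
  refine List.sum_eq_zero fun x hx => ?_
  obtain ⟨y, hy, rfl⟩ := List.mem_map.1 hx
  rw [beq_iff_eq.1 (List.all_eq_true.1 h y hy), zero_smul]

end

def d1 (k : ℕ) : Finset (Fin 21) := {fn k}
def d2 (k : ℕ × ℕ) : Finset (Fin 21) := {fn k.1, fn k.2}
def d3 (k : ℕ × ℕ × ℕ) : Finset (Fin 21) := {fn k.1, fn k.2.1, fn k.2.2}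

def b2 : List ((ℕ × ℕ) × ℤ) → List (ℕ × ℤ)
  | [] => []
  | x :: l => (x.1.2, x.2) :: (x.1.1, -x.2) :: b2 l

def b3 : List ((ℕ × ℕ × ℕ) × ℤ) → List ((ℕ × ℕ) × ℤ)
  | [] => []
  | x :: l => (x.1.2, x.2) :: ((x.1.1, x.1.2.2), -x.2) :: ((x.1.1, x.1.2.1), x.2) :: b3 l

def ok2 (k : ℕ × ℕ) : Prop := fn k.1 < fn k.2 ∧ Gs.Adj (fn k.1) (fn k.2)

def ok3 (k : ℕ × ℕ × ℕ) : Prop := ok2 (k.1, k.2.1) ∧ ok2 k.2 ∧ ok2 (k.1, k.2.2)

instance : DecidablePred ok2 := fun _ => inferInstanceAs (Decidable (_ ∧ _))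
instance : DecidablePred ok3 := fun _ => inferInstanceAs (Decidable (_ ∧ _))

theorem dl_b2 {l : List ((ℕ × ℕ) × ℤ)} (h : ∀ x ∈ l, ok2 x.1) :
    toF d2 l ∈ Sup (Cq Gs 2) ∧ dl (toF d2 l) = toF d1 (b2 l) := by
  induction l with
  | nil => simp [toF, b2]
  | cons x l ih =>
    obtain ⟨i1, i2⟩ := ih fun y hy => h y (List.mem_cons_of_mem _ hy)
    obtain ⟨h1, h2⟩ := h x List.mem_cons_self
    refine ⟨toF_cons x l ▸ add_mem (Submodule.smul_mem _ _ (sup_single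
      ⟨by simpa [d2] using fun _ => h2, Finset.card_pair h1.ne⟩)) i1, ?_⟩
    simp only [toF_cons, b2, map_add, map_smul, i2, d2, d1, dl2 h1]
    module

theorem dl_b3 {l : List ((ℕ × ℕ × ℕ) × ℤ)} (h : ∀ x ∈ l, ok3 x.1) :
    toF d3 l ∈ Sup (Cq Gs 3) ∧ dl (toF d3 l) = toF d2 (b3 l) := by
  induction l with
  | nil => simp [toF, b3]
  | cons x l ih =>
    obtain ⟨i1, i2⟩ := ih fun y hy => h y (List.mem_cons_of_mem _ hy)
    obtain ⟨⟨h1, h2⟩, ⟨h3, h4⟩, h5, h6⟩ := h x List.mem_cons_self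
    refine ⟨toF_cons x l ▸ add_mem (Submodule.smul_mem _ _ (sup_single
      ((SimpleGraph.isNClique_iff _).1 (SimpleGraph.is3Clique_triple_iff.2 ⟨h2, h6, h4⟩)))) i1, ?_⟩
    simp only [toF_cons, b3, map_add, map_smul, i2, d2, d3, dl3 h1 h3]
    module

def pP (v : Fin 21) : List ((ℕ × ℕ) × ℤ) := pL.getD v []

def wW (u v : Fin 21) : List ((ℕ × ℕ × ℕ) × ℤ) := (wL.getD u []).getD v []

theorem ck1 : ∀ v, (∀ x ∈ pP v, ok2 x.1) ∧ zr ((v.1, -1) :: (16, 1) :: b2 (pP v)) = true := by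
  decide +kernel

theorem ck2 : ∀ u v, u < v → Gs.Adj u v → (∀ x ∈ wW u v, ok3 x.1) ∧
    zr (((u.1, v.1), -1) :: (b3 (wW u v) ++ (pP v ++ ng (pP u)))) = true := by
  decide +kernel

theorem ck3 : ∀ u v, u < v → Gs.Adj u v → ∀ w, v < w → Gs.Adj v w → Gs.Adj u w →
    zr (((u.1, v.1, w.1), -1) :: (wW v w ++ ng (wW u w) ++ wW u v)) = true := by
  decide +kernel

def tyL (v : Fin 21) : Fin 3 := if v.1 < 6 then 0 else if v.1 < 16 then 1 else 2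

theorem ck4 : ∀ u v, Gs.Adj u v → tyL u ≠ tyL v := by decide +kernel

noncomputable def acyL : Acy Gs where
  v0 := 16
  P v := toF d2 (pP v)
  W u v := toF d3 (wW u v)
  hP v := by
    refine ⟨(dl_b2 (ck1 v).1).1, ?_⟩
    have := toF_zr (dec := d1) (ck1 v).2
    simp only [toF_cons, d1, fn_val, show fn 16 = 16 from rfl] at this
    rw [(dl_b2 (ck1 v).1).2]
    linear_combination (norm := module) this
  hW u v h a := by
    refine ⟨(dl_b3 (ck2 u v h a).1).1, ?_⟩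
    have := toF_zr (dec := d2) (ck2 u v h a).2
    simp only [toF_cons, toF_app, toF_ng, d2, fn_val] at this
    rw [(dl_b3 (ck2 u v h a).1).2]
    linear_combination (norm := module) this
  h3 u v w h1 h2 a1 a2 a3 := by
    have := toF_zr (dec := d3) (ck3 u v h1 a1 w h2 a2 a3)
    simp only [toF_cons, toF_app, toF_ng, d3, fn_val] at this
    linear_combination (norm := module) this
  h4 σ h := by
    simpa using Finset.card_le_card_of_injOn (t := Finset.univ) tyL (fun _ _ => by simp)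
      fun u hu v hv e => by_contra fun n => ck4 u v (h hu hv n) e

def qq (u v : Fin 21) : ℍ[ℤ√5] := qL.getD (qC / 16 ^ (u * 21 + v : ℕ) % 16) 0

def qE (p q : ℍ[ℤ√5]) : Prop := p.re = q.re ∧ p.imI = q.imI ∧ p.imJ = q.imJ ∧ p.imK = q.imK

instance (p q : ℍ[ℤ√5]) : Decidable (qE p q) := inferInstanceAs (Decidable (_ ∧ _))

def qs (n : ℤ√5) : ℍ[ℤ√5] := ⟨n, 0, 0, 0⟩

theorem ck5 : ∀ u v, (u = v ∨ Gs.Adj u v) → ∀ w, (v = w ∨ Gs.Adj v w) → (u = w ∨ Gs.Adj u w) →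
    qE (qq u v * qq v w) (qs 4 * qq u w) := by decide +kernel

theorem ck6 : ∀ u v, qE (qq u v * star (qq u v)) (qs 16) ∧
    ((qq u v).re = 4 ∨ (qq u v).re = ⟨1, 1⟩) := by decide +kernel

theorem ck7 : (qq 0 6 * qq 6 1 * qq 1 9 * qq 9 0).imJ = -128 := by decide +kernel

noncomputable def tR : ℤ√5 →+* ℝ := Zsqrtd.toReal (by norm_num)

noncomputable def evq (q : ℍ[ℤ√5]) : ℍ := ⟨tR q.re, tR q.imI, tR q.imJ, tR q.imK⟩

@[simp] theorem evq_re (q : ℍ[ℤ√5]) : (evq q).re = tR q.re := rfl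
@[simp] theorem evq_imI (q : ℍ[ℤ√5]) : (evq q).imI = tR q.imI := rfl
@[simp] theorem evq_imJ (q : ℍ[ℤ√5]) : (evq q).imJ = tR q.imJ := rfl
@[simp] theorem evq_imK (q : ℍ[ℤ√5]) : (evq q).imK = tR q.imK := rfl

theorem evq_mul (p q : ℍ[ℤ√5]) : evq (p * q) = evq p * evq q := by ext <;> simp

theorem evq_qs (n : ℤ√5) : evq (qs n) = tR n := by
  ext
  exacts [rfl, map_zero tR, map_zero tR, map_zero tR]

theorem evq_E {p q : ℍ[ℤ√5]} (h : qE p q) : evq p = evq q := by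
  rw [evq, evq, h.1, h.2.1, h.2.2.1, h.2.2.2]

theorem evq_nrm (u v : Fin 21) : ‖(1 / 4 : ℝ) • evq (qq u v)‖ = 1 := by
  have h := evq_E (ck6 u v).1
  have : evq (star (qq u v)) = star (evq (qq u v)) := by ext <;> simp
  rw [evq_mul, this] at h
  have h2 := congrArg norm h
  rw [evq_qs, map_ofNat, norm_mul, Quaternion.norm_star, Quaternion.norm_coe] at h2
  have : ‖evq (qq u v)‖ = 4 := by
    norm_num at h2
    nlinarith [norm_nonneg (evq (qq u v))]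
  rw [norm_smul, this]; norm_num

noncomputable def flL : Fl Gs where
  α u v := S3.mk _ (evq_nrm u v)
  mul u v w a b c := S3.ext (by
    have := evq_E (ck5 u v a w b c)
    rw [evq_mul, evq_mul, evq_qs, map_ofNat, coe_mul_eq_smul] at this
    simp only [S3.v_mul, S3.v_mk, smul_mul_smul_comm, this, smul_smul]
    norm_num)
  pos u v _ := by
    rcases (ck6 u v).2 with h | h <;> simp [h, tR, map_ofNat]
    positivity
  nt β h := by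
    have : (S3.mk _ (evq_nrm 0 6) * S3.mk _ (evq_nrm 6 1) * S3.mk _ (evq_nrm 1 9) *
        S3.mk _ (evq_nrm 9 0) : S3) = 1 := by
      rw [h 0 6 (by decide +kernel), h 6 1 (by decide +kernel), h 1 9 (by decide +kernel),
        h 9 0 (by decide +kernel)]
      group
    have := congrArg (fun q : S3 => (q : ℍ).imJ) this
    simp only [S3.v_mul, S3.v_mk, smul_mul_smul_comm, ← evq_mul] at this
    simp [-Quaternion.imJ_mul, ck7, map_ofNat] at this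

end Vale.Agent.P173
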